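import Vale.Agent.P133.FinDim.Comparison
import Vale.Agent.P133.FinDim.Weights

/-!
Order lemmas for the diagonalisation of a projection against a positive element.
-/

namespace Vale.Agent.P133.Diag

open Vale.Agent.P133.FinDim
open scoped ComplexOrder

noncomputable section

variable {B : Type*} [CStarAlgebra B] [PartialOrder B] [StarOrderedRing B]

theorem star_mul_self_le_one {W : B} (h : ‖W‖ ≤ 1) : star W * W ≤ 1 := by
  refine (CStarAlgebra.norm_le_one_iff_of_nonneg _ (star_mul_self_nonneg W)).1 ?_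
  rw [CStarRing.norm_star_mul_self]
  exact mul_le_one₀ h (norm_nonneg _) h

theorem mul_star_self_le_one {W : B} (h : ‖W‖ ≤ 1) : W * star W ≤ 1 := by
  simpa using star_mul_self_le_one (W := star W) (by rwa [norm_star])

theorem norm_le_one_of_star_mul_le {W : B} {r : ℝ} (hr : 0 ≤ r) (h : star W * W ≤ sc r) :
    ‖W‖ ≤ Real.sqrt r := by
  refine Real.le_sqrt_of_sq_le ?_
  rw [sq, ← CStarRing.norm_star_mul_self]
  exact norm_le_of_le_sc (star_mul_self_nonneg _) hr h

theorem conj_le_self_of_le_one {d : B} (h : d ≤ 1) (a : B) : star a * d * a ≤ star a * a := by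
  simpa using star_left_conjugate_le_conjugate h a

theorem sa_mul_self_le_one {d : B} (h0 : 0 ≤ d) (h1 : d ≤ 1) : d * d ≤ 1 := by
  have := qc_sq_le_self h0 h1
  rw [h0.isSelfAdjoint.star_eq] at this
  exact this.trans h1

omit [PartialOrder B] [StarOrderedRing B] in
theorem norm_smul_contract {X : B} {r : ℝ} (hr : 0 < r) (h : ‖X‖ ^ 2 ≤ r) :
    ‖(Real.sqrt r)⁻¹ • X‖ ≤ 1 := by
  rw [norm_smul, Real.norm_of_nonneg (by positivity),
    inv_mul_le_iff₀ (Real.sqrt_pos.2 hr), mul_one]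
  exact Real.le_sqrt_of_sq_le h

/-- Rescaling an approximate isometry to a contraction. -/
theorem exists_contract {X Y : B} (hY : ‖Y‖ ≤ 1) {e : ℝ} (he : 0 < e)
    (h : ‖star X * X - Y‖ ≤ e) :
    ∃ r : ℝ, 0 < r ∧ r ≤ 1 ∧ ‖r • X‖ ≤ 1 ∧ ‖star (r • X) * (r • X) - Y‖ ≤ 2 * e := by
  have hX : ‖X‖ ^ 2 ≤ 1 + e := by
    rw [sq, ← CStarRing.norm_star_mul_self]
    calc ‖star X * X‖ = ‖Y + (star X * X - Y)‖ := by rw [add_sub_cancel]
      _ ≤ 1 + e := (norm_add_le _ _).trans (add_le_add hY h)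
  refine ⟨(Real.sqrt (1 + e))⁻¹, by positivity,
    inv_le_one_of_one_le₀ (Real.one_le_sqrt.2 (by linarith)), norm_smul_contract (by positivity) hX, ?_⟩
  set q := (1 + e)⁻¹ with hq
  have hq0 : 0 < q := by positivity
  have hq1 : q ≤ 1 := inv_le_one_of_one_le₀ (by linarith)
  have e1 : star ((Real.sqrt (1 + e))⁻¹ • X) * ((Real.sqrt (1 + e))⁻¹ • X)
      = q • (star X * X) := by
    rw [star_smul, star_trivial, smul_mul_assoc, mul_smul_comm, smul_smul, ← mul_inv,
      Real.mul_self_sqrt (by positivity)]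
  have e2 : q • (star X * X) - Y = q • (star X * X - Y) - (1 - q) • Y := by module
  rw [e1, e2]
  refine (norm_sub_le _ _).trans ?_
  rw [norm_smul, norm_smul, Real.norm_of_nonneg hq0.le, Real.norm_of_nonneg (by linarith)]
  have h2 : 1 - q ≤ e := by
    have : (1 + e) * q = 1 := mul_inv_cancel₀ (by positivity)
    nlinarith
  have h3 : q * ‖star X * X - Y‖ ≤ 1 * e := mul_le_mul hq1 h (norm_nonneg _) zero_le_one
  have h4 : (1 - q) * ‖Y‖ ≤ e * 1 := mul_le_mul h2 hY (norm_nonneg _) he.le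
  linarith

theorem mem_of_nonneg_le {L : Set B} (hL : IsClosedIdeal L) {a g : B} (ha : 0 ≤ a) (hag : a ≤ g)
    (hgL : g ∈ L) : a ∈ L := by
  refine mem_of_forall_near hL fun δ hδ => ?_
  have h : Dom L 0 a := ⟨g, hgL, ha.trans hag, by simpa [sc] using hag⟩
  obtain ⟨Y, hY, hn⟩ := h.near hL le_rfl (η := δ ^ 2 / (‖a‖ + 1)) (by positivity) ha
  refine ⟨Y, hY, hn.trans ?_⟩
  rw [Real.sqrt_le_left hδ.le, zero_add, div_mul_eq_mul_div, div_le_iff₀ (by positivity)]
  nlinarith [sq_nonneg δ, norm_nonneg a]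

theorem mem_of_le_add_smul {L : Set B} (hL : IsClosedIdeal L) {a g : B} (ha : 0 ≤ a)
    (hgL : g ∈ L) {d : ℝ} (hd : d < 1) (h : a ≤ g + d • a) : a ∈ L := by
  have h1 : (1 - d) • a ≤ g := by
    rw [sub_smul, one_smul, sub_le_iff_le_add]; exact h
  have h2 : a ≤ (1 - d)⁻¹ • g := by
    have := smul_le_smul_of_nonneg_left h1 (inv_nonneg.2 (sub_pos.2 hd).le)
    rwa [smul_smul, inv_mul_cancel₀ (sub_pos.2 hd).ne', one_smul] at this
  exact mem_of_nonneg_le hL ha h2 (hL.real_smul_mem _ hgL)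

theorem cut_mem_of_dom {L : Set B} (hL : IsClosedIdeal L) {g : B} (hg : 0 ≤ g) {d c : ℝ}
    (hd : 0 ≤ d) (hdc : d < c) (h : Dom L d g) : cut c g ∈ L := by
  obtain ⟨g', hg'L, hg', hle⟩ := h
  have hc : 0 < c := hd.trans_lt hdc
  obtain ⟨k, hk, hkg, hkc⟩ := exists_cut_factor hc hg
  refine mem_of_le_add_smul hL cut_nonneg (hL.mul_right k _ (hL.mul_left k g' hg'L))
    (d := d / c) ((div_lt_one hc).2 hdc) ?_
  calc cut c g = k * g * k := hkg.symm
    _ ≤ k * (g' + sc d) * k := hk.conjugate_le_conjugate hle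
    _ = k * g' * k + (d / c) • (c • (k * k)) := by
        rw [mul_add, add_mul, smul_smul, div_mul_cancel₀ _ hc.ne']
        simp [sc, Algebra.algebraMap_eq_smul_one]
    _ ≤ k * g' * k + (d / c) • cut c g := by
        gcongr

/-- `Y` lies in `L` if an element that fixes it from both sides is below `d < 1` modulo `L`. -/
theorem mem_of_dom_fix {L : Set B} (hL : IsClosedIdeal L) {X Y : B} {d : ℝ}
    (hd1 : d < 1) (h : Dom L d X) (hfix : star Y * X * Y = star Y * Y) : Y ∈ L := by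
  obtain ⟨g, hgL, hg, hle⟩ := h
  have hm : star Y * Y ∈ L := by
    refine mem_of_le_add_smul hL (star_mul_self_nonneg Y)
      (hL.mul_right Y _ (hL.mul_left (star Y) g hgL)) hd1 ?_
    calc star Y * Y = star Y * X * Y := hfix.symm
      _ ≤ star Y * (g + sc d) * Y := star_left_conjugate_le_conjugate hle Y
      _ = star Y * g * Y + d • (star Y * Y) := by
          rw [mul_add, add_mul]; simp [sc, Algebra.algebraMap_eq_smul_one]
  refine mem_of_forall_near hL fun δ hδ => ?_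
  have h0 : Dom L 0 (star Y * Y) := ⟨_, hm, star_mul_self_nonneg Y, by simp [sc]⟩
  obtain ⟨Z, hZ, hn⟩ := h0.near_of_star_mul hL le_rfl (η := δ ^ 2) (by positivity)
  exact ⟨Z, hZ, hn.trans (le_of_eq (by rw [zero_add, Real.sqrt_sq hδ.le]))⟩

theorem self_le_cut_zero {y : B} (hy : IsSelfAdjoint y) : y ≤ cut 0 y := by
  simpa [sc] using le_cut_add (c := 0) hy

omit [PartialOrder B] [StarOrderedRing B] in
theorem cut_zero_conj {y : B} (hy : IsSelfAdjoint y) :
    cut 0 y * y * cut 0 y = cut 0 y * cut 0 y * cut 0 y := by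
  have h : cut 0 y * y = cut 0 y * cut 0 y := by
    unfold cut
    nth_rw 2 [← cfc_id' ℝ y hy]
    rw [← cfc_mul _ (fun t : ℝ => t) y (by fun_prop) (by fun_prop),
      ← cfc_mul _ _ y (by fun_prop) (by fun_prop)]
    refine cfc_congr fun t _ => ?_
    simp only [sub_zero]
    rcases le_total t 0 with h | h <;> simp [h]
  rw [h]

/-- A small cube modulo `L` bounds the element modulo `L`. -/
theorem dom_of_dom_cube {L : Set B} (hL : IsClosedIdeal L) {G : B} (hG : 0 ≤ G) {c ν : ℝ}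
    (hν : 0 < ν) (h : Dom L c (G * G * G)) : Dom L (ν + c / ν ^ 2) G := by
  have h1 : G ≤ sc ν + (ν ^ 2)⁻¹ • (G * G * G) := by
    have e : sc ν + (ν ^ 2)⁻¹ • (G * G * G)
        = cfc (fun t : ℝ => ν + (ν ^ 2)⁻¹ * (t * t * t)) G := by
      rw [cfc_const_add ν (fun t : ℝ => (ν ^ 2)⁻¹ * (t * t * t)) G (by fun_prop) hG.isSelfAdjoint,
        cfc_const_mul (ν ^ 2)⁻¹ (fun t : ℝ => t * t * t) G (by fun_prop),
        cfc_mul (fun t : ℝ => t * t) (fun t : ℝ => t) G (by fun_prop) (by fun_prop),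
        cfc_mul (fun t : ℝ => t) (fun t : ℝ => t) G (by fun_prop) (by fun_prop),
        cfc_id' ℝ G hG.isSelfAdjoint, Algebra.smul_def]
    rw [e]
    conv_lhs => rw [← cfc_id' ℝ G hG.isSelfAdjoint]
    refine cfc_mono (fun t ht => ?_)
    have ht0 := spectrum_nonneg_of_nonneg hG ht
    rcases le_total t ν with h' | h'
    · have : 0 ≤ (ν ^ 2)⁻¹ * (t * t * t) := by positivity
      linarith
    · have : 1 * t ≤ (ν ^ 2)⁻¹ * (t * t) * t := by
        refine mul_le_mul_of_nonneg_right ?_ ht0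
        rw [le_inv_mul_iff₀ (by positivity)]; nlinarith
      linarith [mul_assoc (ν ^ 2)⁻¹ (t * t) t]
  have h0 : Dom L ν (sc ν : B) := dom_of_le_sc hL le_rfl
  refine (h0.add hL (h.smul hL (by positivity : (0:ℝ) ≤ (ν ^ 2)⁻¹))).mono h1 (le_of_eq ?_)
  rw [div_eq_inv_mul]

theorem Near.star {L : Set B} (hL : IsClosedIdeal L) {δ : ℝ} {X : B} (h : Near L δ X) :
    Near L δ (Star.star X) := by
  obtain ⟨Y, hY, hn⟩ := h
  exact ⟨Star.star Y, hL.star_mem hY, by rwa [← star_sub, norm_star]⟩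

omit [PartialOrder B] [StarOrderedRing B] in
theorem cut_zero_mem {A₀ : Set B} (hA₀ : IsClosedIdeal A₀) {y : B} (hy : IsSelfAdjoint y)
    (hyA : y ∈ A₀) : cut 0 y ∈ A₀ :=
  cfc_mem_of_zero hA₀ hy hyA (by fun_prop) (by simp)

end

end Vale.Agent.P133.Diag
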