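import Vale.Agent.P133.Diag.Pair
import Vale.Agent.P133.FinDim.Transfer

/-!
The condition of strong pure infiniteness at pairs with a generating projection on one side.
-/

namespace Vale.Agent.P133.Diag

open Vale.Agent.P133.FinDim
open scoped ComplexOrder

noncomputable section

variable {A : Type*} [NonUnitalCStarAlgebra A] [PartialOrder A] [StarOrderedRing A]

/-- Up to every `δ`, the closed ideal of `x ^ 2` is generated by a projection in `x A x`. -/
def HasGenProjection (x : A) : Prop :=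
  ∀ δ : ℝ, 0 < δ → ∃ (p z : A), IsStarProjection p ∧ ‖p - x * z * x‖ ≤ δ ∧
    ∃ (n : ℕ) (l r : Fin n → A), ‖x * x - ∑ i, l i * p * r i‖ ≤ δ

omit [PartialOrder A] [StarOrderedRing A] in
theorem hasGenProjection_of_projection {x : A} (hx : IsStarProjection x) : HasGenProjection x := by
  intro δ hδ
  refine ⟨x, x, hx, by simp [hx.isIdempotentElem.eq, hδ.le], 1, fun _ => x, fun _ => x, ?_⟩
  simp [hx.isIdempotentElem.eq, hδ.le]

theorem ampPI_base (h : IsPurelyInfinite A) : AmpPI (base A) 1 := by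
  rintro _ ⟨g, rfl⟩ hg ε hε
  obtain ⟨r, hr⟩ := h g (Unitization.inr_nonneg_iff.1 hg) ε hε
  refine ⟨fun _ c => (r c.2 : Unitization ℂ A), fun _ c => ⟨_, rfl⟩, fun c c' => ?_⟩
  refine le_trans (le_of_eq ?_) (hr c.2 c'.2).le
  have hiff : (c = c') ↔ c.2 = c'.2 :=
    ⟨fun e => e ▸ rfl, fun e => Prod.ext (Subsingleton.elim _ _) e⟩
  rw [← Unitization.norm_inr (𝕜 := ℂ) (A := A), Unitization.inr_sub, Fin.sum_univ_one]
  by_cases hc : c.2 = c'.2 <;> simp [hiff, hc, Unitization.inr_mul, Unitization.inr_star]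

/-- The comparison in the unitization, for a rescaled element. -/
theorem exists_pair_proj {B : Type*} [CStarAlgebra B] [PartialOrder B] [StarOrderedRing B]
    {A₀ : Set B} (hA₀ : IsClosedIdeal A₀) (hP : AmpPI A₀ 1) {p x y z : B}
    (hp : IsStarProjection p) (hpA : p ∈ A₀) (hxA : x ∈ A₀) (hx0 : 0 ≤ x) (hx1 : x ≤ 1)
    (hyA : y ∈ A₀) (hy0 : 0 ≤ y) (hy1 : y ≤ 1) {δ : ℝ} (hδ : 0 < δ) (hδ1 : δ ≤ 1 / 8)
    (hpz : ‖p - x * z * x‖ ≤ δ) (hgen : Dom (genIdeal p) δ (x * x)) :
    ∃ s t : B, s ∈ A₀ ∧ t ∈ A₀ ∧ ‖star s * (x * x) * s - x * x‖ ≤ 30 * δ ∧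
      ‖star t * (y * y) * t - y * y‖ ≤ 30 * δ ∧ ‖star s * x * y * t‖ ≤ 30 * δ := by
  have hpp : p * p = p := hp.isIdempotentElem.eq
  have hps : star p = p := hp.isSelfAdjoint.star_eq
  have hp0 : 0 ≤ p := by
    have := star_mul_self_nonneg p
    rwa [hps, hpp] at this
  have hfix : star p * p * p = star p * p := by rw [hps, hpp, hpp]
  have hcut : genIdeal p ⊆ genIdeal (cut (1 / 2) p) := by
    refine genIdeal_subset (isClosedIdeal_genIdeal _)
      (mem_of_dom_fix (isClosedIdeal_genIdeal _) (d := 1 / 2) (by norm_num) ?_ hfix)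
    exact ⟨_, mem_genIdeal_self _, cut_nonneg, le_cut_add hp.isSelfAdjoint⟩
  have hxx : 0 ≤ x * x := hx0.isSelfAdjoint.mul_self_nonneg
  obtain ⟨w, hwA, hw, hwn⟩ := hP.compare hA₀ le_rfl (hA₀.mul_left x x hxA) hxx hpA hp0
    (show (0 : ℝ) < 1 / 2 by norm_num) hδ (by
      obtain ⟨g, hg, hg0, hle⟩ := hgen
      exact ⟨g, hcut hg, hg0, hle⟩)
  rw [Fin.sum_univ_one] at hw
  have hxxn : ‖x * x‖ ≤ 1 := qc_norm_le_one hxx (sa_mul_self_le_one hx0 hx1)
  have hw2 : ‖w 0‖ ≤ 2 := by
    have := hwn 0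
    nlinarith [norm_nonneg (w 0)]
  obtain ⟨b, t, hbA, htA, hpb, hbp, hbn, hb, ht, hyt, hcross⟩ :=
    exists_pair hA₀ hP hp hpA hyA hy0 hy1 hδ
  set s := z * x * b * w 0 with hs
  set Y := b * w 0 with hY
  set X := x * s with hX
  have hXY : ‖X - Y‖ ≤ 2 * δ := by
    have e1 : X - Y = (x * z * x - p) * Y := by
      rw [sub_mul, hY, ← mul_assoc p, hpb, hX, hs]; simp only [mul_assoc]
    rw [e1]
    refine (norm_mul_le _ _).trans ?_
    rw [norm_sub_rev] at hpz
    calc ‖x * z * x - p‖ * ‖Y‖ ≤ δ * 2 := by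
          refine mul_le_mul hpz ?_ (norm_nonneg _) hδ.le
          exact (norm_mul_le _ _).trans ((mul_le_mul hbn hw2 (norm_nonneg _) zero_le_one).trans
            (by norm_num))
      _ = 2 * δ := by ring
  have hYn : ‖Y‖ ≤ 2 :=
    (norm_mul_le _ _).trans ((mul_le_mul hbn hw2 (norm_nonneg _) zero_le_one).trans (by norm_num))
  have hXn : ‖X‖ ≤ 3 := by
    calc ‖X‖ = ‖(X - Y) + Y‖ := by rw [sub_add_cancel]
      _ ≤ 3 := (norm_add_le _ _).trans (by linarith)
  refine ⟨s, t, hA₀.mul_left _ _ (hwA 0), htA, ?_, ht.trans (by linarith), ?_⟩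
  · have e1 : star s * (x * x) * s - x * x = star (X - Y) * X + star Y * (X - Y) +
        star (w 0) * (star b * b - p) * w 0 + (star (w 0) * p * w 0 - x * x) := by
      have : star s * (x * x) * s = star X * X := by
        rw [hX]; simp only [star_mul, hx0.isSelfAdjoint.star_eq, mul_assoc]
      rw [this, star_sub, sub_mul, mul_sub, mul_sub, sub_mul, hY]
      simp only [star_mul, mul_assoc]
      abel
    rw [e1]
    refine (norm_add_le _ _).trans ?_
    refine le_trans (add_le_add ((norm_add_le _ _).trans (add_le_add (norm_add_le _ _) le_rfl))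
      hw) ?_
    have a1 : ‖star (X - Y) * X‖ ≤ 2 * δ * 3 := (norm_mul_le _ _).trans (by
      rw [norm_star]; gcongr)
    have a2 : ‖star Y * (X - Y)‖ ≤ 2 * (2 * δ) := (norm_mul_le _ _).trans (by
      rw [norm_star]; gcongr)
    have a3 : ‖star (w 0) * (star b * b - p) * w 0‖ ≤ 2 * δ * 2 := (norm_mul_le _ _).trans (by
      gcongr
      exact (norm_mul_le _ _).trans (by rw [norm_star]; gcongr))
    linarith
  · have e1 : star s * x * y * t = star (X - Y) * (y * t) + star (w 0) * (star b * (p * (y * t))) := by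
      have hbY : star b * p = star b := by rw [← hps, ← star_mul, hpb]
      rw [← mul_assoc (star b) p, hbY, star_sub, sub_mul, hX, hY]
      simp only [star_mul, hx0.isSelfAdjoint.star_eq, mul_assoc]
      abel
    rw [e1]
    refine (norm_add_le _ _).trans ?_
    have a1 : ‖star (X - Y) * (y * t)‖ ≤ 2 * δ * 1 := (norm_mul_le _ _).trans (by
      rw [norm_star]; gcongr)
    have a2 : ‖star (w 0) * (star b * (p * (y * t)))‖ ≤ 2 * δ := (norm_mul_le _ _).trans (by
      rw [norm_star]; gcongr)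
    linarith

theorem split_of_genProjection (hA : IsPurelyInfinite A) {x y : A} (hx : 0 ≤ x) (hy : 0 ≤ y)
    (hgp : HasGenProjection x) {ε : ℝ} (hε : 0 < ε) :
    ∃ s t : A, ‖star s * (x * x) * s - x * x‖ < ε ∧ ‖star t * (y * y) * t - y * y‖ < ε ∧
      ‖star s * x * y * t‖ < ε := by
  set M : ℝ := ‖x‖ + ‖y‖ + 1 with hM
  have hM0 : 0 < M := by positivity
  set m : ℝ := M⁻¹ with hm
  have hm0 : 0 < m := by positivity
  have hm1 : m ≤ 1 := inv_le_one_of_one_le₀ (by linarith [norm_nonneg x, norm_nonneg y])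
  set δ : ℝ := min (1 / 8) (m ^ 2 * ε / 60) with hδdef
  have hδ : 0 < δ := lt_min (by norm_num) (by positivity)
  obtain ⟨p, z, hp, hpz, n, l, r, hlr⟩ := hgp (δ / 2) (half_pos hδ)
  have hle : ∀ u : A, 0 ≤ u → ‖u‖ ≤ M →
      0 ≤ (↑(m • u) : Unitization ℂ A) ∧ (↑(m • u) : Unitization ℂ A) ≤ 1 := by
    intro u hu huM
    have h0 : 0 ≤ (↑(m • u) : Unitization ℂ A) :=
      Unitization.inr_nonneg_iff.2 (smul_nonneg hm0.le hu)
    refine ⟨h0, (CStarAlgebra.norm_le_one_iff_of_nonneg _ h0).1 ?_⟩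
    rw [Unitization.norm_inr, norm_smul, Real.norm_of_nonneg hm0.le, hm,
      inv_mul_le_iff₀ hM0, mul_one]
    exact huM
  obtain ⟨hx0, hx1⟩ := hle x hx (by linarith [norm_nonneg y])
  obtain ⟨hy0, hy1⟩ := hle y hy (by linarith [norm_nonneg x])
  have hp' : IsStarProjection (p : Unitization ℂ A) :=
    ⟨by rw [IsIdempotentElem, ← Unitization.inr_mul, hp.isIdempotentElem.eq],
      by rw [IsSelfAdjoint, ← Unitization.inr_star, hp.isSelfAdjoint.star_eq]⟩
  have hz' : ‖(p : Unitization ℂ A) - (↑(m • x) : Unitization ℂ A) * ↑((m⁻¹ * m⁻¹) • z) *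
      ↑(m • x)‖ ≤ δ := by
    rw [← Unitization.inr_mul, ← Unitization.inr_mul, ← Unitization.inr_sub, Unitization.norm_inr]
    refine le_trans (le_of_eq ?_) (hpz.trans (by linarith))
    congr 2
    simp only [smul_mul_assoc, mul_smul_comm, smul_smul]
    rw [show m * (m⁻¹ * m⁻¹ * m) = 1 by field_simp, one_smul]
  have hgen : Dom (genIdeal (p : Unitization ℂ A)) δ
      ((↑(m • x) : Unitization ℂ A) * ↑(m • x)) := by
    refine ((Near.dom (isClosedIdeal_genIdeal _) (η := δ / 2) (half_pos hδ) ?_ ?_).mono le_rfl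
      (show δ / 2 + δ / 2 ≤ δ by linarith))
    · exact hx0.isSelfAdjoint.mul_self_nonneg.isSelfAdjoint
    · refine ⟨∑ i, (↑((m * m) • l i) : Unitization ℂ A) * ↑p * ↑(r i),
        (isClosedIdeal_genIdeal _).sum_mem _ _ fun i _ => (isClosedIdeal_genIdeal _).mul_right _ _
          ((isClosedIdeal_genIdeal _).mul_left _ _ (mem_genIdeal_self _)), ?_⟩
      simp only [← Unitization.inr_mul]
      rw [← inr_finsetSum, ← Unitization.inr_sub, Unitization.norm_inr]
      simp only [smul_mul_assoc, mul_smul_comm, smul_smul]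
      rw [← Finset.smul_sum, ← smul_sub, norm_smul, Real.norm_of_nonneg (by positivity)]
      calc m * m * ‖x * x - ∑ i, l i * p * r i‖ ≤ 1 * (δ / 2) :=
            mul_le_mul (mul_le_one₀ hm1 hm0.le hm1) hlr (norm_nonneg _) zero_le_one
        _ = δ / 2 := one_mul _
  obtain ⟨s, t, hs, ht, hsx, hty, hst⟩ := exists_pair_proj (isClosedIdeal_base A) (ampPI_base hA)
    hp' ⟨p, rfl⟩ ⟨_, rfl⟩ hx0 hx1 ⟨_, rfl⟩ hy0 hy1 hδ (min_le_left _ _) hz' hgen
  obtain ⟨s', rfl⟩ := hs
  obtain ⟨t', rfl⟩ := ht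
  have key : ∀ u : A, ‖((m ^ 2) • u)‖ ≤ 30 * δ → ‖u‖ < ε := by
    intro u hu
    rw [norm_smul, Real.norm_of_nonneg (by positivity)] at hu
    have : δ ≤ m ^ 2 * ε / 60 := min_le_right _ _
    nlinarith [pow_pos hm0 2]
  refine ⟨s', t', key _ ?_, key _ ?_, key _ ?_⟩
  · refine le_trans (le_of_eq ?_) hsx
    rw [← Unitization.norm_inr (𝕜 := ℂ)]
    congr 1
    simp [Unitization.inr_smul, smul_smul, smul_sub, pow_two]
  · refine le_trans (le_of_eq ?_) hty
    rw [← Unitization.norm_inr (𝕜 := ℂ)]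
    congr 1
    simp [Unitization.inr_smul, smul_smul, smul_sub, pow_two]
  · refine le_trans (le_of_eq ?_) hst
    rw [← Unitization.norm_inr (𝕜 := ℂ)]
    congr 1
    simp [Unitization.inr_smul, smul_smul, pow_two, mul_assoc]

theorem split_of_genProjection_or (hA : IsPurelyInfinite A) {x y : A} (hx : 0 ≤ x) (hy : 0 ≤ y)
    (hgp : HasGenProjection x ∨ HasGenProjection y) {ε : ℝ} (hε : 0 < ε) :
    ∃ s t : A, ‖star s * (x * x) * s - x * x‖ < ε ∧ ‖star t * (y * y) * t - y * y‖ < ε ∧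
      ‖star s * x * y * t‖ < ε := by
  rcases hgp with h | h
  · exact split_of_genProjection hA hx hy h hε
  · obtain ⟨t, s, ht, hs, hts⟩ := split_of_genProjection hA hy hx h hε
    refine ⟨s, t, hs, ht, ?_⟩
    have : star (star t * y * x * s) = star s * x * y * t := by
      simp only [star_mul, star_star, hx.isSelfAdjoint.star_eq, hy.isSelfAdjoint.star_eq,
        mul_assoc]
    rwa [← this, norm_star]

/-- In a unital purely infinite algebra a full positive element has a generating projection. -/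
theorem hasGenProjection_of_full {U : Type*} [CStarAlgebra U] [PartialOrder U] [StarOrderedRing U]
    (hA : IsPurelyInfinite U) {x : U} (hx : 0 ≤ x) {n : ℕ} {l r : Fin n → U}
    (hlr : ∑ i, l i * x * r i = 1) : HasGenProjection x := by
  intro δ hδ
  set A₀ : Set U := Set.univ with hA₀def
  have hA₀ : IsClosedIdeal A₀ :=
    ⟨trivial, fun _ _ _ _ => trivial, fun _ _ _ => trivial, fun _ _ _ => trivial,
      fun _ _ _ => trivial, isClosed_univ⟩
  have hP : AmpPI A₀ 1 := by
    intro h _ hh ε hε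
    obtain ⟨w, hw⟩ := hA h hh ε hε
    refine ⟨fun _ c => w c.2, fun _ _ => trivial, fun c c' => ?_⟩
    have hiff : (c = c') ↔ c.2 = c'.2 :=
      ⟨fun e => e ▸ rfl, fun e => Prod.ext (Subsingleton.elim _ _) e⟩
    simpa [Fin.sum_univ_one, hiff] using (hw c.2 c'.2).le
  have hxs : star x = x := hx.isSelfAdjoint.star_eq
  set C : ℝ := ∑ i, ‖l i‖ * ‖r i‖ with hC
  have hC0 : 0 ≤ C := Finset.sum_nonneg fun i _ => by positivity
  set c : ℝ := (1 / (4 * (C + 1))) ^ 2 with hc
  have hc0 : 0 < c := by positivity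
  set G := x * x with hG
  have hG0 : 0 ≤ G := hx.isSelfAdjoint.mul_self_nonneg
  set L := genIdeal (cut c G) with hLdef
  have hL : IsClosedIdeal L := isClosedIdeal_genIdeal _
  have h1L : (1 : U) ∈ L := by
    have h0 : Dom L c (star x * x) :=
      ⟨_, mem_genIdeal_self _, cut_nonneg, by rw [hxs]; exact le_cut_add hG0.isSelfAdjoint⟩
    obtain ⟨Y, hY, hn⟩ := h0.near_of_star_mul hL hc0.le hc0
    have hnear : Near L (1 / 2) (1 : U) := by
      refine ⟨∑ i, l i * Y * r i,
        hL.sum_mem _ _ fun i _ => hL.mul_right _ _ (hL.mul_left _ _ hY), ?_⟩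
      rw [← hlr, ← Finset.sum_sub_distrib]
      refine (norm_sum_le _ _).trans ?_
      calc ∑ i, ‖l i * x * r i - l i * Y * r i‖ ≤ ∑ i, ‖l i‖ * ‖r i‖ * Real.sqrt (c + c) := by
            refine Finset.sum_le_sum fun i _ => ?_
            rw [← sub_mul, ← mul_sub]
            refine (norm_mul_le _ _).trans ?_
            refine (mul_le_mul_of_nonneg_right (norm_mul_le _ _) (norm_nonneg _)).trans ?_
            rw [mul_right_comm]
            gcongr
        _ = C * Real.sqrt (c + c) := by rw [hC, Finset.sum_mul]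
        _ ≤ C * (2 * (1 / (4 * (C + 1)))) := by
            gcongr
            rw [Real.sqrt_le_left (by positivity), hc]
            nlinarith [sq_nonneg (1 / (4 * (C + 1)))]
        _ ≤ 1 / 2 := by
            rw [show C * (2 * (1 / (4 * (C + 1)))) = C / (C + 1) * (1 / 2) by field_simp; ring]
            refine mul_le_of_le_one_left (by norm_num) ?_
            rw [div_le_one (by positivity)]; linarith
    refine mem_of_dom_fix hL (d := 3 / 4) (by norm_num)
      ((hnear.dom hL (η := 1 / 4) (by norm_num) (IsSelfAdjoint.one U)).mono le_rfl (by norm_num)) ?_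
    simp
  obtain ⟨u, -, hu, -⟩ := hP.compare hA₀ le_rfl (f := (1 : U)) trivial zero_le_one (G := G) trivial
    hG0 hc0 (ε := 1 / 16) (by norm_num)
    ⟨1, h1L, zero_le_one, le_add_of_nonneg_right (sc_nonneg (by norm_num))⟩
  rw [Fin.sum_univ_one] at hu
  set P := star (u 0) * G * u 0 with hP'
  have hP0 : 0 ≤ P := star_left_conjugate_nonneg hG0 _
  have hsp : ∀ t ∈ spectrum ℝ P, (1 / 2 : ℝ) ≤ t := by
    have h : algebraMap ℝ U (1 / 2) ≤ P := by
      have h1 : (1 : U) - P ≤ sc (1 / 2) := le_sc_of_norm_le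
        ((IsSelfAdjoint.one U).sub hP0.isSelfAdjoint)
        (by rw [norm_sub_rev]; exact hu.trans (by norm_num))
      rw [sub_le_iff_le_add, ← sub_le_iff_le_add'] at h1
      refine le_trans (le_of_eq ?_) h1
      rw [sc, eq_sub_iff_add_eq, ← map_add, show (1 / 2 : ℝ) + 1 / 2 = 1 by norm_num, map_one]
    exact (algebraMap_le_iff_le_spectrum hP0.isSelfAdjoint).mp h
  have hpos : ∀ t ∈ spectrum ℝ P, Real.sqrt t ≠ 0 := fun t ht =>
    (Real.sqrt_pos.2 (lt_of_lt_of_le (by norm_num) (hsp t ht))).ne'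
  set ρ := cfc (fun t : ℝ => (Real.sqrt t)⁻¹) P with hρ
  have hρs : star ρ = ρ := (cfc_predicate _ P : IsSelfAdjoint ρ).star_eq
  have hρc : ContinuousOn (fun t : ℝ => (Real.sqrt t)⁻¹) (spectrum ℝ P) :=
    Real.continuous_sqrt.continuousOn.inv₀ hpos
  have hρP : ρ * P * ρ = 1 := by
    rw [hρ]
    nth_rw 2 [← cfc_id' ℝ P hP0.isSelfAdjoint]
    rw [← cfc_mul _ (fun t : ℝ => t) P hρc continuousOn_id,
      ← cfc_mul (fun t => (Real.sqrt t)⁻¹ * t) _ P (hρc.mul continuousOn_id) hρc,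
      ← cfc_const_one ℝ P hP0.isSelfAdjoint]
    refine cfc_congr fun t ht => ?_
    have := hpos t ht
    have h' : Real.sqrt t * Real.sqrt t = t :=
      Real.mul_self_sqrt (le_trans (by norm_num) (hsp t ht))
    field_simp
    nlinarith
  set v := x * u 0 * ρ with hv
  have hvv : star v * v = 1 := by
    rw [← hρP, hP', hv, hG]
    simp only [star_mul, hxs, hρs, mul_assoc]
  refine ⟨v * star v, u 0 * ρ * ρ * star (u 0), ?_, ?_, 1, fun _ => x * x * star v, fun _ => v, ?_⟩
  · exact ⟨by rw [IsIdempotentElem, mul_assoc, ← mul_assoc (star v), hvv, one_mul],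
      IsSelfAdjoint.mul_star_self v⟩
  · have e : v * star v - x * (u 0 * ρ * ρ * star (u 0)) * x = 0 := by
      rw [hv]; simp only [star_mul, hxs, hρs, mul_assoc, sub_self]
    rw [e, norm_zero]; exact hδ.le
  · have e : x * x * star v * (v * star v) * v = x * x := by
      calc x * x * star v * (v * star v) * v = x * x * (star v * v) * (star v * v) := by
            simp only [mul_assoc]
        _ = x * x := by rw [hvv, mul_one, mul_one]
    rw [Fin.sum_univ_one, e, sub_self, norm_zero]; exact hδ.le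

end

end Vale.Agent.P133.Diag
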