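import Vale.Agent.P133.Diag.Step

/-!
Iterating the step: a projection against an arbitrary positive element.
-/

namespace Vale.Agent.P133.Diag

open Vale.Agent.P133.FinDim
open scoped ComplexOrder

noncomputable section

variable {B : Type*} [CStarAlgebra B] [PartialOrder B] [StarOrderedRing B]
variable {A₀ : Set B}

theorem kappa_pos : 0 < kappa := Real.sqrt_pos.2 (by norm_num)

theorem kappa_lt_one : kappa < 1 := by
  rw [kappa, Real.sqrt_lt' one_pos]; norm_num

theorem iterate_gain (hA₀ : IsClosedIdeal A₀) (hP : AmpPI A₀ 1) {p : B}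
    (hp : IsStarProjection p) (hpA : p ∈ A₀) (N : ℕ) :
    ∀ F : ℕ → B, Chain A₀ F → ∀ W : B, p * W = W → ‖W‖ ≤ 1 → ∀ e : ℝ, 0 < e →
      ∃ b s : B, b ∈ A₀ ∧ s ∈ A₀ ∧ p * b = b ∧ b * p = b ∧ ‖b‖ ≤ 1 ∧ ‖s‖ ≤ 1 ∧
        ‖star b * b - p‖ ≤ e ∧ F 0 * s = s ∧ ‖star s * s - F (5 * N + 1)‖ ≤ e ∧
        ‖star b * W * s‖ ≤ kappa ^ N := by
  have hpp : p * p = p := hp.isIdempotentElem.eq
  have hps : star p = p := hp.isSelfAdjoint.star_eq
  have hp0 : 0 ≤ p := by
    have := star_mul_self_nonneg p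
    rwa [hps, hpp] at this
  have hpn : ‖p‖ ≤ 1 := by
    refine qc_norm_le_one hp0 ?_
    have h := star_mul_self_nonneg (1 - p)
    rwa [star_sub, star_one, hps, show (1 - p) * (1 - p) = 1 - p by
      rw [sub_mul, one_mul, mul_sub, mul_one, hpp, sub_self, sub_zero], sub_nonneg] at h
  induction N with
  | zero =>
    intro F hF W hpW hW e he
    have hF1 : ‖F 1‖ ≤ 1 := qc_norm_le_one (hF.nonneg 1) (hF.le_one 1)
    have hSn : ‖CFC.sqrt (F 1)‖ ≤ 1 := by
      rw [CFC.norm_sqrt _ (hF.nonneg 1), Real.sqrt_le_one]; exact hF1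
    refine ⟨p, CFC.sqrt (F 1), hpA, hA₀.sqrt_mem (hF.nonneg 1) (hF.mem 1), hpp, hpp, hpn, hSn,
      by rw [hps, hpp, sub_self, norm_zero]; exact he.le,
      mul_sqrt_eq_of_mul_eq (hF.nonneg 1) (hF.mul_succ 0), ?_, ?_⟩
    · rw [(CFC.sqrt_nonneg (F 1)).isSelfAdjoint.star_eq,
        CFC.sqrt_mul_sqrt_self _ (hF.nonneg 1), sub_self, norm_zero]
      exact he.le
    · rw [hps, hpW, pow_zero]
      exact (norm_mul_le _ _).trans (mul_le_one₀ hW (norm_nonneg _) hSn)
  | succ N ih =>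
    intro F hF W hpW hW e he
    obtain ⟨b₁, s₁, hb₁A, hs₁A, hpb₁, hbp₁, hb₁n, hs₁n, hb₁, hFs₁, hs₁, hg⟩ :=
      gain_step hA₀ hP hF hp hpA hpW hW (half_pos he)
    set W' := kappa⁻¹ • (star b₁ * W * s₁) with hW'
    have hpW' : p * W' = W' := by
      have : p * star b₁ = star b₁ := by rw [← hps, ← star_mul, hbp₁]
      rw [hW', mul_smul_comm, ← mul_assoc, ← mul_assoc, this]
    have hW'n : ‖W'‖ ≤ 1 := by
      rw [hW', norm_smul, Real.norm_of_nonneg (inv_nonneg.2 kappa_pos.le),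
        inv_mul_le_iff₀ kappa_pos, mul_one]
      exact hg
    obtain ⟨b₂, s₂, hb₂A, hs₂A, hpb₂, hbp₂, hb₂n, hs₂n, hb₂, hFs₂, hs₂, hg₂⟩ :=
      ih _ (hF.shift 5) W' hpW' hW'n (e / 2) (half_pos he)
    have hF4s : F 4 * s₂ = s₂ := by
      conv_lhs => rw [← hFs₂]
      rw [← mul_assoc, show (5 + 0 : ℕ) = 4 + 1 from rfl, hF.mul_succ 4]
      exact hFs₂
    refine ⟨b₁ * b₂, s₁ * s₂, hA₀.mul_left _ _ hb₂A, hA₀.mul_left _ _ hs₂A,
      by rw [← mul_assoc, hpb₁], by rw [mul_assoc, hbp₂],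
      (norm_mul_le _ _).trans (mul_le_one₀ hb₁n (norm_nonneg _) hb₂n),
      (norm_mul_le _ _).trans (mul_le_one₀ hs₁n (norm_nonneg _) hs₂n), ?_,
      by rw [← mul_assoc, hFs₁], ?_, ?_⟩
    · have e1 : star (b₁ * b₂) * (b₁ * b₂) - p =
          star b₂ * (star b₁ * b₁ - p) * b₂ + (star b₂ * b₂ - p) := by
        rw [mul_sub, sub_mul, mul_assoc (star b₂) p, hpb₂, star_mul]
        simp only [mul_assoc]
        abel
      rw [e1]
      refine (norm_add_le _ _).trans ((add_le_add ?_ hb₂).trans_eq (add_halves e))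
      calc ‖star b₂ * (star b₁ * b₁ - p) * b₂‖
          ≤ ‖star b₂‖ * ‖star b₁ * b₁ - p‖ * ‖b₂‖ := (norm_mul_le _ _).trans (by
            gcongr; exact norm_mul_le _ _)
        _ ≤ 1 * (e / 2) * 1 := by rw [norm_star]; gcongr
        _ = e / 2 := by ring
    · have e1 : star (s₁ * s₂) * (s₁ * s₂) - F (5 * (N + 1) + 1) =
          star s₂ * (star s₁ * s₁ - F 4) * s₂ + (star s₂ * s₂ - F (5 + (5 * N + 1))) := by
        rw [mul_sub, sub_mul, mul_assoc (star s₂) (F 4), hF4s, star_mul,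
          show 5 * (N + 1) + 1 = 5 + (5 * N + 1) by ring]
        simp only [mul_assoc]
        abel
      rw [e1]
      refine (norm_add_le _ _).trans ((add_le_add ?_ hs₂).trans_eq (add_halves e))
      calc ‖star s₂ * (star s₁ * s₁ - F 4) * s₂‖
          ≤ ‖star s₂‖ * ‖star s₁ * s₁ - F 4‖ * ‖s₂‖ := (norm_mul_le _ _).trans (by
            gcongr; exact norm_mul_le _ _)
        _ ≤ 1 * (e / 2) * 1 := by rw [norm_star]; gcongr
        _ = e / 2 := by ring
    · have e1 : star (b₁ * b₂) * W * (s₁ * s₂) = kappa • (star b₂ * W' * s₂) := by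
        rw [hW', mul_smul_comm, smul_mul_assoc, smul_smul, mul_inv_cancel₀ kappa_pos.ne', one_smul,
          star_mul]
        simp only [mul_assoc]
      rw [e1, norm_smul, Real.norm_of_nonneg kappa_pos.le, pow_succ']
      exact mul_le_mul_of_nonneg_left hg₂ kappa_pos.le

/-- A projection and a positive contraction can be diagonalised. -/
theorem exists_pair (hA₀ : IsClosedIdeal A₀) (hP : AmpPI A₀ 1) {p y : B}
    (hp : IsStarProjection p) (hpA : p ∈ A₀) (hyA : y ∈ A₀) (hy0 : 0 ≤ y) (hy1 : y ≤ 1)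
    {e : ℝ} (he : 0 < e) :
    ∃ b t : B, b ∈ A₀ ∧ t ∈ A₀ ∧ p * b = b ∧ b * p = b ∧ ‖b‖ ≤ 1 ∧ ‖star b * b - p‖ ≤ e ∧
      ‖star t * (y * y) * t - y * y‖ ≤ e ∧ ‖y * t‖ ≤ 1 ∧ ‖star b * (p * (y * t))‖ ≤ e := by
  obtain ⟨N, hN⟩ := exists_pow_lt_of_lt_one he kappa_lt_one
  set θ : ℝ := min (e / 8) (1 / 8) with hθ
  have hθ0 : 0 < θ := lt_min (by positivity) (by norm_num)
  have hys := hy0.isSelfAdjoint
  set a : ℕ → ℝ := fun i => 2 * θ - θ / (i + 1) with ha
  have hagap : ∀ i, 0 < a (i + 1) - a i := fun i => by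
    simp only [ha]
    have : θ / ((i + 1 : ℕ) + 1) < θ / ((i : ℝ) + 1) := by
      apply div_lt_div_of_pos_left hθ0 (by positivity); push_cast; linarith
    linarith
  have haθ : ∀ i, θ ≤ a i := fun i => by
    simp only [ha]
    have : θ / ((i : ℝ) + 1) ≤ θ := div_le_self hθ0.le (by linarith [(i.cast_nonneg : (0:ℝ) ≤ i)])
    linarith
  have ha2 : ∀ i, a i ≤ 2 * θ := fun i => by
    simp only [ha]
    have : 0 ≤ θ / ((i : ℝ) + 1) := by positivity
    linarith
  set φ : ℕ → ℝ → ℝ := fun i t => max 0 (min 1 ((t - a i) / (a (i + 1) - a i))) with hφ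
  have hφc : ∀ i, Continuous (φ i) := fun i => by fun_prop
  have hφ1 : ∀ i t, φ i t ≤ 1 := fun i t => max_le zero_le_one (min_le_left _ _)
  have hφ0 : ∀ i t, 0 ≤ φ i t := fun i t => le_max_left _ _
  have hφlow : ∀ i t, t ≤ a i → φ i t = 0 := fun i t h => by
    simp only [hφ]
    refine max_eq_left (min_le_iff.2 (Or.inr ?_))
    exact div_nonpos_of_nonpos_of_nonneg (sub_nonpos.2 h) (hagap i).le
  have hφhigh : ∀ i t, a (i + 1) ≤ t → φ i t = 1 := fun i t h => by
    simp only [hφ]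
    have : 1 ≤ (t - a i) / (a (i + 1) - a i) := by rw [le_div_iff₀ (hagap i)]; linarith
    rw [min_eq_left this, max_eq_right zero_le_one]
  set F : ℕ → B := fun i => cfc (φ i) y with hF
  have hch : Chain A₀ F := by
    refine ⟨fun i => cfc_nonneg fun t _ => hφ0 i t, fun i => cfc_le_one _ _ fun t _ => hφ1 i t,
      fun i => cfc_mem_of_zero hA₀ hys hyA (hφc i) (hφlow i 0 (hθ0.le.trans (haθ i))), fun i => ?_⟩
    simp only [hF]
    rw [← cfc_mul (φ i) (φ (i + 1)) y (hφc i).continuousOn (hφc _).continuousOn]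
    refine cfc_congr fun t _ => ?_
    rcases le_total t (a (i + 1)) with h | h
    · simp [hφlow (i + 1) t h]
    · simp [hφhigh i t h]
  set ψ : ℝ → ℝ := fun t => (max t θ)⁻¹ with hψ
  have hψc : Continuous ψ :=
    (continuous_id.max continuous_const).inv₀ fun t => (lt_max_of_lt_right hθ0).ne'
  set g := cfc ψ y with hg
  have hyg : y * g = cfc (fun t => t * ψ t) y := by
    rw [hg]
    nth_rw 1 [← cfc_id' ℝ y hys]
    rw [← cfc_mul (fun t : ℝ => t) ψ y continuousOn_id hψc.continuousOn]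
  have hygn : ‖y * g‖ ≤ 1 := by
    rw [hyg]
    refine norm_cfc_le zero_le_one fun t ht => ?_
    have := spectrum_nonneg_of_nonneg hy0 ht
    simp only [hψ, Real.norm_eq_abs]
    rw [abs_of_nonneg (by positivity), ← div_eq_mul_inv, div_le_one (lt_max_of_lt_right hθ0)]
    exact le_max_left _ _
  have hygF : y * g * F 0 = F 0 := by
    rw [hyg, hF]
    dsimp only
    rw [← cfc_mul (fun t => t * ψ t) (φ 0) y (continuous_id.mul hψc).continuousOn (hφc 0).continuousOn]
    refine cfc_congr fun t _ => ?_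
    rcases le_total t (a 0) with h | h
    · simp [hφlow 0 t h]
    · have ht : θ ≤ t := (haθ 0).trans h
      simp only [hψ]
      rw [max_eq_left ht, mul_inv_cancel₀ (hθ0.trans_le ht).ne', one_mul]
  have hpn : ‖p‖ ≤ 1 := by
    rcases eq_or_ne p 0 with h | h
    · simp [h]
    · have := hp.isSelfAdjoint.norm_mul_self (x := p)
      rw [hp.isIdempotentElem.eq] at this
      nlinarith [norm_pos_iff.2 h]
  set W := p * (y * g) with hW
  have hpW : p * W = W := by rw [hW, ← mul_assoc, hp.isIdempotentElem.eq]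
  have hWn : ‖W‖ ≤ 1 := (norm_mul_le _ _).trans (mul_le_one₀ hpn (norm_nonneg _) hygn)
  obtain ⟨b, s, hbA, hsA, hpb, hbp, hbn, hsn, hb, hFs, hs, hgain⟩ :=
    iterate_gain hA₀ hP hp hpA N F hch W hpW hWn (e / 4) (by positivity)
  have hyn : ‖y‖ ≤ 1 := qc_norm_le_one hy0 hy1
  have hygs : y * g * s = s := by
    conv_lhs => rw [← hFs]
    rw [← mul_assoc, hygF, hFs]
  have hyt : y * (g * s * y) = s * y := by rw [← mul_assoc, ← mul_assoc, hygs]
  refine ⟨b, g * s * y, hbA, hA₀.mul_left _ _ hyA, hpb, hbp, hbn, hb.trans (by linarith), ?_,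
    by rw [hyt]; exact (norm_mul_le _ _).trans (mul_le_one₀ hsn (norm_nonneg _) hyn), ?_⟩
  · have e1 : star (g * s * y) * (y * y) * (g * s * y) - y * y =
        y * (star s * s - F (5 * N + 1)) * y + (y * F (5 * N + 1) * y - y * y) := by
      have : star (g * s * y) * (y * y) * (g * s * y)
          = star (y * (g * s * y)) * (y * (g * s * y)) := by
        simp only [star_mul, hys.star_eq, mul_assoc]
      rw [this, hyt, star_mul, hys.star_eq, mul_sub, sub_mul]
      simp only [mul_assoc]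
      abel
    rw [e1]
    refine (norm_add_le _ _).trans ?_
    have a1 : ‖y * (star s * s - F (5 * N + 1)) * y‖ ≤ 1 * (e / 4) * 1 :=
      (norm_mul_le _ _).trans (by gcongr; exact (norm_mul_le _ _).trans (by gcongr))
    have a2 : ‖y * F (5 * N + 1) * y - y * y‖ ≤ 4 * θ ^ 2 := by
      set k := 5 * N + 1 with hk
      have : y * F k * y - y * y = cfc (fun t => t * φ k t * t - t * t) y := by
        rw [cfc_sub (fun t : ℝ => t * φ k t * t) (fun t => t * t) y
          (by fun_prop) (by fun_prop), cfc_mul (fun t : ℝ => t * φ k t) (fun t => t) y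
          (by fun_prop) (by fun_prop), cfc_mul (fun t : ℝ => t) (φ k) y (by fun_prop) (by fun_prop),
          cfc_mul (fun t : ℝ => t) (fun t => t) y (by fun_prop) (by fun_prop), cfc_id' ℝ y hys]
      rw [this]
      refine norm_cfc_le (by positivity) fun t ht => ?_
      have ht0 := spectrum_nonneg_of_nonneg hy0 ht
      rw [Real.norm_eq_abs, abs_le]
      rcases le_total (a (k + 1)) t with h | h
      · rw [hφhigh k t h, mul_one, sub_self]
        constructor <;> nlinarith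
      · have h2 : t ≤ 2 * θ := h.trans (ha2 _)
        have := hφ0 k t; have := hφ1 k t
        constructor <;> nlinarith [mul_le_mul h2 h2 ht0 (by positivity : 0 ≤ 2 * θ)]
    have a3 : 4 * θ ^ 2 ≤ e / 2 := by
      have := min_le_left (e / 8) (1 / 8 : ℝ); have := min_le_right (e / 8) (1 / 8 : ℝ)
      rw [← hθ] at *
      nlinarith
    linarith
  · rw [hyt]
    have e1 : star b * (p * (s * y)) = star b * W * s * y := by
      conv_lhs => rw [← hygs]
      rw [hW]; simp only [mul_assoc]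
    rw [e1]
    calc ‖star b * W * s * y‖ ≤ ‖star b * W * s‖ * ‖y‖ := norm_mul_le _ _
      _ ≤ kappa ^ N * 1 := by gcongr
      _ ≤ e := by rw [mul_one]; exact hN.le

end

end Vale.Agent.P133.Diag
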