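import Vale.Agent.P133.Diag.Lemmas

/-!
One contraction step: a corner isometry and a twin whose inner product with `W` drops by a
universal factor.
-/

namespace Vale.Agent.P133.Diag

open Vale.Agent.P133.FinDim
open scoped ComplexOrder

noncomputable section

variable {B : Type*} [CStarAlgebra B] [PartialOrder B] [StarOrderedRing B]
variable {A₀ : Set B}

/-- A chain of positive contractions in `A₀`, each acting as a unit on the next one. -/
structure Chain (A₀ : Set B) (F : ℕ → B) : Prop where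
  nonneg : ∀ i, 0 ≤ F i
  le_one : ∀ i, F i ≤ 1
  mem : ∀ i, F i ∈ A₀
  mul_succ : ∀ i, F i * F (i + 1) = F (i + 1)

theorem Chain.succ_mul {F : ℕ → B} (hF : Chain A₀ F) (i : ℕ) :
    F (i + 1) * F i = F (i + 1) := by
  have := congrArg star (hF.mul_succ i)
  rwa [star_mul, (hF.nonneg i).isSelfAdjoint.star_eq, (hF.nonneg (i + 1)).isSelfAdjoint.star_eq]
    at this

omit [StarOrderedRing B] in
theorem Chain.shift {F : ℕ → B} (hF : Chain A₀ F) (k : ℕ) : Chain A₀ fun i => F (k + i) :=
  ⟨fun _ => hF.nonneg _, fun _ => hF.le_one _, fun _ => hF.mem _, fun i => hF.mul_succ (k + i)⟩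

/-- Two almost orthogonal contractions `s` with `star s * s ≈ F`, supported in the range of
`sqrt F`. -/
theorem exists_twins (hA₀ : IsClosedIdeal A₀) (hP : AmpPI A₀ 1) {F M : B} (hFA : F ∈ A₀)
    (hF0 : 0 ≤ F) (hF1 : F ≤ 1) (hMF : M * F = F) {η : ℝ} (hη : 0 < η) :
    ∃ s₁ s₂ : B, s₁ ∈ A₀ ∧ s₂ ∈ A₀ ∧ M * s₁ = s₁ ∧ M * s₂ = s₂ ∧ ‖s₁‖ ≤ 1 ∧ ‖s₂‖ ≤ 1 ∧
      ‖star s₁ * s₁ - F‖ ≤ 2 * η ∧ ‖star s₂ * s₂ - F‖ ≤ 2 * η ∧ ‖star s₁ * s₂‖ ≤ 2 * η := by
  obtain ⟨r, hr, hrr⟩ := hP F hFA hF0 η hη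
  set R := CFC.sqrt F with hR
  have hRs : star R = R := (CFC.sqrt_nonneg F).isSelfAdjoint.star_eq
  have hRR : R * R = F := CFC.sqrt_mul_sqrt_self F hF0
  have hMR : M * R = R := mul_sqrt_eq_of_mul_eq hF0 hMF
  have hFn : ‖F‖ ≤ 1 := qc_norm_le_one hF0 hF1
  set X : Fin 2 → B := fun i => R * r 0 (0, i) with hX
  have hXX : ∀ i j, ‖star (X i) * X j - (if i = j then F else 0)‖ ≤ η := by
    intro i j
    have h := hrr (0, i) (0, j)
    rw [Fin.sum_univ_one] at h
    have e : star (X i) * X j = star (r 0 (0, i)) * F * r 0 (0, j) := by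
      rw [hX, star_mul, hRs, ← hRR]; noncomm_ring
    rw [e]
    simpa using h
  have hXA : ∀ i, X i ∈ A₀ := fun i => hA₀.mul_left _ _ (hr _ _)
  have hMX : ∀ i, M * X i = X i := fun i => by rw [hX, ← mul_assoc, hMR]
  obtain ⟨a, ha0, ha', ha1, ha2⟩ := exists_contract hFn hη (by simpa using hXX 0 0)
  obtain ⟨b, hb0, hb', hb1, hb2⟩ := exists_contract hFn hη (by simpa using hXX 1 1)
  refine ⟨a • X 0, b • X 1, hA₀.real_smul_mem a (hXA 0), hA₀.real_smul_mem b (hXA 1),
    by rw [mul_smul_comm, hMX], by rw [mul_smul_comm, hMX], ha1, hb1, ha2, hb2, ?_⟩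
  -- the cross term
  have e : star (a • X 0) * (b • X 1) = (a * b) • (star (X 0) * X 1) := by
    rw [star_smul, star_trivial, smul_mul_assoc, mul_smul_comm, smul_smul]
  rw [e, norm_smul, Real.norm_of_nonneg (by positivity)]
  have h01 : ‖star (X 0) * X 1‖ ≤ η := by simpa using hXX 0 1
  calc a * b * ‖star (X 0) * X 1‖ ≤ 1 * η := by
        refine mul_le_mul ?_ h01 (norm_nonneg _) zero_le_one
        exact mul_le_one₀ ha' hb0.le hb'
    _ ≤ 2 * η := by linarith

/-- A corner isometry that avoids `x * j`, where `j` lies in the ideal of the places in which `x`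
does not cover the projection `p`. -/
theorem exists_avoid (hA₀ : IsClosedIdeal A₀) (hP : AmpPI A₀ 1) {p x j : B}
    (hp : IsStarProjection p) (hpA : p ∈ A₀) (hpx : p * x = x) (hxA : x ∈ A₀)
    (hj0 : 0 ≤ j) (hj1 : j ≤ 1)
    (hjI : j ∈ genIdeal (cut (1 / 100) (cut 0 ((1 / 4 : ℝ) • p - x * star x))))
    {e : ℝ} (he : 0 < e) :
    ∃ b : B, b ∈ A₀ ∧ p * b = b ∧ b * p = b ∧ ‖b‖ ≤ 1 ∧ ‖star b * b - p‖ ≤ e ∧
      star (star b * (x * j)) * (star b * (x * j)) ≤ sc (1 / 4) := by
  obtain ⟨hpi, hps⟩ := hp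
  have hpp : p * p = p := hpi.eq
  have hpstar : star p = p := hps.star_eq
  have hjs : IsSelfAdjoint j := hj0.isSelfAdjoint
  have hp0 : 0 ≤ p := by
    have := star_mul_self_nonneg p
    rwa [hpstar, hpp] at this
  have hpn : ‖p‖ ≤ 1 := by
    refine qc_norm_le_one hp0 ?_
    have h := star_mul_self_nonneg (1 - p)
    rwa [star_sub, star_one, hpstar, show (1 - p) * (1 - p) = 1 - p by
      rw [sub_mul, one_mul, mul_sub, mul_one, hpp, sub_self, sub_zero], sub_nonneg] at h
  have hxp : star x * p = star x := by rw [← hpstar, ← star_mul, hpx]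
  set y₁ : B := (1 / 4 : ℝ) • p - x * star x with hy₁
  set x' := x * j with hx'
  set y : B := (1 / 4 : ℝ) • p - x' * star x' with hy
  have hpx' : p * x' = x' := by rw [hx', ← mul_assoc, hpx]
  have hys : IsSelfAdjoint y :=
    ((IsSelfAdjoint.all _).smul hps).sub (IsSelfAdjoint.mul_star_self x')
  have hy1s : IsSelfAdjoint y₁ :=
    ((IsSelfAdjoint.all _).smul hps).sub (IsSelfAdjoint.mul_star_self x)
  have hyy : y₁ ≤ y := by
    refine sub_le_sub_left ?_ _
    have h := star_left_conjugate_le_conjugate (sa_mul_self_le_one hj0 hj1) (star x)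
    simpa [hx', star_mul, hjs.star_eq, mul_assoc] using h
  have hyA : y ∈ A₀ := hA₀.sub_mem (hA₀.real_smul_mem _ hpA)
    (hA₀.mul_right _ _ (hA₀.mul_right j x hxA))
  set E := cut 0 y with hE
  have hEA : E ∈ A₀ := cut_zero_mem hA₀ hys hyA
  have hE0 : 0 ≤ E := cut_nonneg
  -- the threshold
  set c : ℝ := min (1 / 100000000) (e / 64) with hc
  have hc0 : 0 < c := lt_min (by norm_num) (by positivity)
  set L := genIdeal (cut c E) with hLdef
  have hL : IsClosedIdeal L := isClosedIdeal_genIdeal _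
  have hEL : E ≤ cut c E + sc c := le_cut_add hE0.isSelfAdjoint
  -- `I ⊆ L`
  set G := cut 0 y₁ with hG
  have hG0 : 0 ≤ G := cut_nonneg
  have hGn : ‖G‖ ≤ 1 := by
    refine norm_cfc_le zero_le_one fun t ht => ?_
    have hle : y₁ ≤ algebraMap ℝ B 1 := by
      rw [map_one, hy₁]
      refine (sub_le_self _ (mul_star_self_nonneg x)).trans ?_
      refine (CStarAlgebra.norm_le_one_iff_of_nonneg _ (smul_nonneg (by norm_num) hp0)).1 ?_
      rw [norm_smul, Real.norm_of_nonneg (by norm_num)]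
      linarith
    have := (le_algebraMap_iff_spectrum_le (r := (1:ℝ)) (a := y₁) hy1s).mp hle t ht
    rw [Real.norm_eq_abs, abs_of_nonneg (le_max_right _ _), sub_zero]
    exact max_le this zero_le_one
  have hG3 : Dom L c (G * G * G) := by
    have h1 : G * G * G ≤ star G * E * G := by
      rw [hG0.isSelfAdjoint.star_eq, hG, ← cut_zero_conj hy1s]
      exact hG0.isSelfAdjoint.conjugate_le_conjugate (hyy.trans (self_le_cut_zero hys))
    have h2 : Dom L c E := ⟨_, mem_genIdeal_self _, cut_nonneg, hEL⟩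
    refine (h2.conj hL hc0.le G).mono h1 ?_
    calc c * ‖G‖ ^ 2 ≤ c * 1 ^ 2 := by gcongr
      _ = c := by ring
  have hIL : cut (1 / 100) G ∈ L := by
    refine cut_mem_of_dom hL hG0 (d := 1 / 200 + c / (1 / 200) ^ 2) (by positivity) ?_
      (dom_of_dom_cube hL hG0 (by norm_num) hG3)
    have : c ≤ 1 / 100000000 := min_le_left _ _
    norm_num
    linarith
  have hx'L : x' ∈ L := hL.mul_left x j (genIdeal_subset hL hIL hjI)
  have hpdom : Dom L (4 * c) p := by
    have h1 : Dom L c ((1 / 4 : ℝ) • p) := by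
      refine ⟨cut c E + x' * star x', hL.add_mem _ (mem_genIdeal_self _) _
        (hL.mul_right _ _ hx'L), add_nonneg cut_nonneg (mul_star_self_nonneg _), ?_⟩
      calc (1 / 4 : ℝ) • p = y + x' * star x' := by rw [hy, sub_add_cancel]
        _ ≤ cut c E + sc c + x' * star x' :=
          add_le_add ((self_le_cut_zero hys).trans hEL) le_rfl
        _ = cut c E + x' * star x' + sc c := by abel
    have h2 := h1.smul hL (r := 4) (by norm_num)
    rwa [smul_smul, show (4 : ℝ) * (1 / 4) = 1 by norm_num, one_smul] at h2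
  obtain ⟨u, huA, hu, -⟩ := hP.compare hA₀ le_rfl hpA hp0 hEA hE0 hc0 (by positivity) hpdom
  rw [Fin.sum_univ_one] at hu
  -- the square root of `E`
  set q := CFC.sqrt E with hq
  have hqs : star q = q := (CFC.sqrt_nonneg E).isSelfAdjoint.star_eq
  have hqq : q * q = E := CFC.sqrt_mul_sqrt_self E hE0
  have hpE : p * E = E := by
    have hpy : (1 - p) * y = 0 := by
      rw [hy, mul_sub, mul_smul_comm, ← mul_assoc, sub_mul 1 p x', one_mul, hpx', sub_self,
        zero_mul, sub_mul, one_mul, hpp, sub_self, smul_zero, sub_zero]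
    have hyE : y * E = E * E := by
      rw [hE]
      unfold cut
      nth_rw 1 [← cfc_id' ℝ y hys]
      rw [← cfc_mul (fun t : ℝ => t) _ y (by fun_prop) (by fun_prop),
        ← cfc_mul _ _ y (by fun_prop) (by fun_prop)]
      refine cfc_congr fun t _ => ?_
      simp only [sub_zero]
      rcases le_total t 0 with h | h <;> simp [h]
    have hz : ((1 - p) * E) * star ((1 - p) * E) = 0 := by
      rw [star_mul, hE0.isSelfAdjoint.star_eq, ← mul_assoc, mul_assoc (1 - p), ← hyE,
        ← mul_assoc (1 - p), hpy, zero_mul, zero_mul]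
    rw [CStarRing.mul_star_self_eq_zero_iff, sub_mul, one_mul, sub_eq_zero] at hz
    exact hz.symm
  have hpq : p * q = q := mul_sqrt_eq_of_mul_eq hE0 hpE
  set b₀ := q * u 0 * p with hb₀
  have hb0e : ‖star b₀ * b₀ - p‖ ≤ 16 * c := by
    have e1 : star b₀ * b₀ - p = p * (star (u 0) * E * u 0 - p) * p := by
      rw [hb₀, star_mul, star_mul, hqs, hpstar, ← hqq, mul_sub, sub_mul, hpp, hpp]
      simp only [mul_assoc]
    rw [e1]
    refine (norm_mul_le _ _).trans ?_
    calc ‖p * (star (u 0) * E * u 0 - p)‖ * ‖p‖ ≤ ‖p * (star (u 0) * E * u 0 - p)‖ * 1 := by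
          gcongr
      _ ≤ ‖p‖ * ‖star (u 0) * E * u 0 - p‖ * 1 := by gcongr; exact norm_mul_le _ _
      _ ≤ 1 * (4 * (4 * c)) * 1 := by gcongr
      _ = 16 * c := by ring
  obtain ⟨a, ha0, -, ha1, ha2⟩ := exists_contract hpn (by positivity) hb0e
  have hpb : p * b₀ = b₀ := by rw [hb₀, ← mul_assoc, ← mul_assoc, hpq]
  have hbp : b₀ * p = b₀ := by rw [hb₀, mul_assoc _ p p, hpp]
  refine ⟨a • b₀, hA₀.real_smul_mem a (hA₀.mul_left _ _ hpA), by rw [mul_smul_comm, hpb],
    by rw [smul_mul_assoc, hbp], ha1, ha2.trans ?_, ?_⟩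
  · have : c ≤ e / 64 := min_le_right _ _
    linarith
  -- avoidance
  have hqy : q * y * q = E * E := by
    have e1 : q * y * q = q * q * y := by
      have hc' : Commute y q := by
        rw [hq, hE]
        exact (((Commute.refl y).cfc_real _).cfcₙ_nnreal _).symm
      rw [mul_assoc, hc'.eq, ← mul_assoc]
    rw [e1, hqq, hE]
    unfold cut
    nth_rw 2 [← cfc_id' ℝ y hys]
    rw [← cfc_mul _ (fun t : ℝ => t) y (by fun_prop) (by fun_prop),
      ← cfc_mul _ _ y (by fun_prop) (by fun_prop)]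
    refine cfc_congr fun t _ => ?_
    simp only [sub_zero]
    rcases le_total t 0 with h | h <;> simp [h]
  set b := a • b₀ with hb
  have hby : 0 ≤ star b * y * b := by
    have e1 : star b * y * b = (a * a) • (star (u 0 * p) * (q * y * q) * (u 0 * p)) := by
      simp only [hb, hb₀, star_smul, star_trivial, star_mul, hqs, smul_mul_assoc, mul_smul_comm,
        smul_smul, mul_assoc]
    rw [e1, hqy]
    exact smul_nonneg (mul_self_nonneg a) (star_left_conjugate_nonneg
      (hE0.isSelfAdjoint.mul_self_nonneg) _)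
  have h1 : (star b * x') * star (star b * x') ≤ sc (1 / 4) := by
    rw [star_mul, star_star]
    have h2 : (star b * x') * (star x' * b) ≤ (1 / 4 : ℝ) • (star b * p * b) := by
      rw [← sub_nonneg]
      refine hby.trans (le_of_eq ?_)
      clear_value b
      rw [hy, mul_sub, sub_mul, mul_smul_comm, smul_mul_assoc]
      simp only [mul_assoc]
    refine h2.trans ?_
    have hpb' : star b * p * b = star b * b := by
      rw [hb, mul_assoc, mul_smul_comm, hpb]
    rw [hpb', sc, Algebra.algebraMap_eq_smul_one]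
    exact smul_le_smul_of_nonneg_left (star_mul_self_le_one ha1) (by norm_num)
  refine le_sc_of_norm_le (IsSelfAdjoint.star_mul_self _) ?_
  rw [CStarRing.norm_star_mul_self, ← CStarRing.norm_self_mul_star]
  exact norm_le_of_le_sc (mul_star_self_nonneg _) (by norm_num) h1

/-- The factor by which one step shrinks the inner product. -/
abbrev kappa : ℝ := Real.sqrt (1 - 1 / 1000)

theorem gain_step (hA₀ : IsClosedIdeal A₀) (hP : AmpPI A₀ 1) {p W : B} {F : ℕ → B}
    (hF : Chain A₀ F) (hp : IsStarProjection p) (hpA : p ∈ A₀) (hpW : p * W = W)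
    (hW : ‖W‖ ≤ 1) {e : ℝ} (he : 0 < e) :
    ∃ b s : B, b ∈ A₀ ∧ s ∈ A₀ ∧ p * b = b ∧ b * p = b ∧ ‖b‖ ≤ 1 ∧ ‖s‖ ≤ 1 ∧
      ‖star b * b - p‖ ≤ e ∧ F 0 * s = s ∧ ‖star s * s - F 4‖ ≤ e ∧
      ‖star b * W * s‖ ≤ kappa := by
  set M := F 1 with hM
  have hM0 : 0 ≤ M := hF.nonneg 1
  have hM1 : M ≤ 1 := hF.le_one 1
  have hMs : star M = M := hM0.isSelfAdjoint.star_eq
  have hF2 : star (F 2) = F 2 := (hF.nonneg 2).isSelfAdjoint.star_eq
  have hF3 : star (F 3) = F 3 := (hF.nonneg 3).isSelfAdjoint.star_eq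
  have hF4 : star (F 4) = F 4 := (hF.nonneg 4).isSelfAdjoint.star_eq
  have hn3 : ‖F 3‖ ≤ 1 := qc_norm_le_one (hF.nonneg 3) (hF.le_one 3)
  have hn2 : ‖F 2‖ ≤ 1 := qc_norm_le_one (hF.nonneg 2) (hF.le_one 2)
  obtain ⟨s₁, s₂, hs₁A, hs₂A, hMs₁, hMs₂, hs₁n, hs₂n, hs₁, hs₂, hs₁₂⟩ :=
    exists_twins hA₀ hP (hF.mem 2) (hF.nonneg 2) (hF.le_one 2) (hF.mul_succ 1)
      (show (0 : ℝ) < 1 / 2000 by norm_num)
  -- the defect of `W` on the plateau
  set V := W * M with hV
  set h := M * M - star V * V with hh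
  have hh0 : 0 ≤ h := by
    rw [hh, sub_nonneg, hV, star_mul, hMs]
    have := star_left_conjugate_le_conjugate (star_mul_self_le_one hW) M
    simpa [hMs, mul_assoc] using this
  have hh1 : h ≤ 1 :=
    (sub_le_self _ (star_mul_self_nonneg V)).trans (sa_mul_self_le_one hM0 hM1)
  have hVA : V ∈ A₀ := hA₀.mul_left W M (hF.mem 1)
  have hhA : h ∈ A₀ := hA₀.sub_mem (hA₀.mul_left M M (hF.mem 1)) (hA₀.mul_left _ _ hVA)
  set H := genIdeal (cut (1 / 100) h) with hHdef
  have hH : IsClosedIdeal H := isClosedIdeal_genIdeal _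
  set x := W * s₁ with hx
  set x₂ := W * s₂ with hx₂
  have hxA : x ∈ A₀ := hA₀.mul_left W s₁ hs₁A
  have hpx : p * x = x := by rw [hx, ← mul_assoc, hpW]
  have hpx₂ : p * x₂ = x₂ := by rw [hx₂, ← mul_assoc, hpW]
  have hdef : ∀ a c : B, M * a = a → M * c = c →
      star a * h * c = star a * c - star (W * a) * (W * c) := by
    intro a c ha hc
    have ha' : star a * M = star a := by rw [← hMs, ← star_mul, ha]
    rw [hh, hV, mul_sub, sub_mul, star_mul, hMs]
    congr 1
    · rw [← mul_assoc, ha', ha']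
    · rw [star_mul, mul_assoc (star a) _ c, mul_assoc (M * star W) _ c, ← mul_assoc (star a),
        ← mul_assoc (star a), ha', mul_assoc W M c, hc]
  -- where `x` covers `p`, and where `W` is not isometric
  set G := cut 0 ((1 / 4 : ℝ) • p - x * star x) with hG
  set I := genIdeal (cut (1 / 100) G) with hIdef
  have hI : IsClosedIdeal I := isClosedIdeal_genIdeal _
  set J : Fin 2 → Set B := ![I, H] with hJ
  have hJi : ∀ i, IsClosedIdeal (J i) := by
    intro i; fin_cases i
    · exact hI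
    · exact hH
  have hS : IsClosedIdeal (closedSum J) := IsClosedIdeal.closedSum hJi
  have hF3J : F 3 ∈ closedSum J := by
    have hdh : Dom (closedSum J) (1 / 100) (star s₂ * h * s₂) := by
      have h0 : Dom (closedSum J) (1 / 100) h :=
        ⟨_, mem_closedSum_of_mem hJi (i := 1) (mem_genIdeal_self _), cut_nonneg,
          le_cut_add hh0.isSelfAdjoint⟩
      refine (h0.conj hS (by norm_num) s₂).mono le_rfl ?_
      calc (1 / 100 : ℝ) * ‖s₂‖ ^ 2 ≤ 1 / 100 * 1 ^ 2 := by gcongr
        _ = 1 / 100 := by norm_num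
    have hdG : Dom (closedSum J) (1 / 100) (star x₂ * G * x₂) := by
      have h0 : Dom (closedSum J) (1 / 100) G :=
        ⟨_, mem_closedSum_of_mem hJi (i := 0) (mem_genIdeal_self _), cut_nonneg,
          le_cut_add cut_nonneg.isSelfAdjoint⟩
      refine (h0.conj hS (by norm_num) x₂).mono le_rfl ?_
      have : ‖x₂‖ ≤ 1 := (norm_mul_le _ _).trans (mul_le_one₀ hW (norm_nonneg _) hs₂n)
      calc (1 / 100 : ℝ) * ‖x₂‖ ^ 2 ≤ 1 / 100 * 1 ^ 2 := by gcongr
        _ = 1 / 100 := by norm_num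
    have hcross : Dom (closedSum J) (1 / 40) (star (star x * x₂) * (star x * x₂)) := by
      have e1 : star x * x₂ = star s₁ * s₂ + -(star s₁ * h * s₂) := by
        rw [hdef _ _ hMs₁ hMs₂]; abel
      have k1 := star_mul_add_le (star s₁ * s₂) (-(star s₁ * h * s₂)) (zero_lt_one' ℝ)
      rw [← e1, inv_one, show (1 : ℝ) + 1 = 2 by norm_num, star_neg, neg_mul_neg] at k1
      have k2 : star (star s₁ * h * s₂) * (star s₁ * h * s₂) ≤ star s₂ * h * s₂ := by
        have j1 : star (star s₁ * h * s₂) * (star s₁ * h * s₂)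
            = star (h * s₂) * (s₁ * star s₁) * (h * s₂) := by
          simp only [star_mul, star_star, hh0.isSelfAdjoint.star_eq, mul_assoc]
        rw [j1]
        refine (conj_le_self_of_le_one (mul_star_self_le_one hs₁n) _).trans ?_
        have j2 : star (h * s₂) * (h * s₂) = star s₂ * (h * star h) * s₂ := by
          simp only [star_mul, hh0.isSelfAdjoint.star_eq, mul_assoc]
        rw [j2]
        exact star_left_conjugate_le_conjugate (qc_sq_le_self hh0 hh1) s₂
      have k3 : star (star s₁ * s₂) * (star s₁ * s₂) ≤ sc (1 / 1000 * (1 / 1000)) := by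
        refine le_sc_of_norm_le (IsSelfAdjoint.star_mul_self _) ?_
        rw [CStarRing.norm_star_mul_self]
        have : ‖star s₁ * s₂‖ ≤ 1 / 1000 := hs₁₂.trans (by norm_num)
        exact mul_le_mul this this (norm_nonneg _) (by norm_num)
      refine (((dom_of_le_sc hS k3).smul hS zero_le_two).add hS
        ((hdh.mono k2 le_rfl).smul hS zero_le_two)).mono k1 (by norm_num)
    have hd2 : Dom (closedSum J) (1 / 20) ((1 / 4 : ℝ) • F 2) := by
      have e1 : (1 / 4 : ℝ) • (star x₂ * x₂) ≤ star x₂ * G * x₂ +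
          star (star x * x₂) * (star x * x₂) := by
        rw [← sub_le_iff_le_add]
        refine le_trans (le_of_eq ?_) (star_left_conjugate_le_conjugate
          (self_le_cut_zero (((IsSelfAdjoint.all (1 / 4 : ℝ)).smul hp.isSelfAdjoint).sub
            (IsSelfAdjoint.mul_star_self x))) x₂)
        rw [mul_sub, sub_mul, mul_smul_comm, smul_mul_assoc, mul_assoc (star x₂) p, hpx₂]
        clear_value x x₂
        simp only [star_mul, star_star, mul_assoc]
      have e2 : F 2 ≤ star x₂ * x₂ + star s₂ * h * s₂ + sc (1 / 1000) := by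
        have j1 : F 2 - star s₂ * s₂ ≤ sc (1 / 1000) := by
          refine le_sc_of_norm_le ((hF.nonneg 2).isSelfAdjoint.sub (IsSelfAdjoint.star_mul_self _))
            ?_
          rw [norm_sub_rev]; exact hs₂.trans (by norm_num)
        rw [hdef _ _ hMs₂ hMs₂, add_sub_cancel]
        exact sub_le_iff_le_add'.1 j1
      have e3 : (1 / 4 : ℝ) • F 2 ≤ star x₂ * G * x₂ + star (star x * x₂) * (star x * x₂) +
          (1 / 4 : ℝ) • (star s₂ * h * s₂) + (1 / 4 : ℝ) • sc (1 / 1000) := by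
        refine (smul_le_smul_of_nonneg_left e2 (by norm_num)).trans ?_
        rw [smul_add, smul_add]
        gcongr
      exact (((hdG.add hS hcross).add hS (hdh.smul hS (by norm_num))).add hS
        ((dom_of_le_sc hS le_rfl).smul hS (by norm_num))).mono e3 (by norm_num)
    have hd2' : Dom (closedSum J) (1 / 5) (F 2) := by
      have := hd2.smul hS (r := 4) (by norm_num)
      rw [smul_smul, show (4 : ℝ) * (1 / 4) = 1 by norm_num, one_smul] at this
      exact this.mono le_rfl (by norm_num)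
    refine mem_of_dom_fix hS (by norm_num) hd2' ?_
    rw [hF3, hF.succ_mul 2]
  obtain ⟨z, hz, hzn⟩ := Metric.mem_closure_iff.1 hF3J (1 / 1000000) (by norm_num)
  obtain ⟨w, hw, rfl⟩ := hz
  rw [dist_eq_norm, Fin.sum_univ_two] at hzn
  have hwI : w 0 ∈ I := by simpa [hJ] using hw 0
  have hwH : w 1 ∈ H := by simpa [hJ] using hw 1
  have hη0 : (0 : ℝ) < 1 / 1000000 := by norm_num
  set j := unitOf (1 / 1000000) (w 0 * star (w 0)) with hjdef
  have hj0 : 0 ≤ j := unitOf_nonneg hη0 (mul_star_self_nonneg _)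
  have hj1 : j ≤ 1 := unitOf_le_one hη0 (mul_star_self_nonneg _)
  have hjI : j ∈ I := unitOf_mem hI hη0 (mul_star_self_nonneg _) (hI.mul_right _ _ hwI)
  have hjn : ‖(1 : B) - j‖ ≤ 1 := qc_norm_le_one (sub_nonneg.2 hj1) (sub_le_self 1 hj0)
  have hNear : Near H (1 / 500) ((1 - j) * F 3) := by
    refine ⟨(1 - j) * w 1, hH.mul_left _ _ hwH, ?_⟩
    have e1 : (1 - j) * F 3 - (1 - j) * w 1 = (1 - j) * (F 3 - (w 0 + w 1)) + (1 - j) * w 0 := by
      noncomm_ring
    rw [e1]
    refine (norm_add_le _ _).trans ?_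
    have h2 : ‖(1 - j) * w 0‖ ^ 2 ≤ (1 / 1000) ^ 2 :=
      (norm_one_sub_unitOf_mul_sq hη0 (mul_star_self_nonneg _) le_rfl).trans (by norm_num)
    have h3 := abs_le_of_sq_le_sq' h2 (by norm_num)
    have h4 : ‖(1 - j) * (F 3 - (w 0 + w 1))‖ ≤ 1 * (1 / 1000000) :=
      (norm_mul_le _ _).trans (mul_le_mul hjn hzn.le (norm_nonneg _) zero_le_one)
    linarith [h3.2]
  -- the corner isometry
  obtain ⟨b, hbA, hpb, hbp, hbn, hbe, hbav⟩ :=
    exists_avoid hA₀ hP hp hpA hpx hxA hj0 hj1 hjI he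
  set U := star b * V with hU
  set K := M * M - star U * U with hK
  have hhK : h ≤ K := by
    rw [hh, hK, hU, star_mul (star b) V, star_star]
    refine sub_le_sub_left ?_ _
    have := conj_le_self_of_le_one (mul_star_self_le_one hbn) V
    simpa [mul_assoc] using this
  have hK0 : 0 ≤ K := hh0.trans hhK
  have hKM : K ≤ M * M := sub_le_self _ (star_mul_self_nonneg U)
  set φ : ℝ → ℝ := fun t => min 1 (max (t - 1 / 1000) 0 * 1000) with hφ
  have hφc : Continuous φ := by fun_prop
  set q := cfc φ K with hq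
  have hqs : IsSelfAdjoint q := cfc_predicate _ _
  have hqKq : q * K * q = cfc (fun t => φ t * t * φ t) K := by
    rw [hq]
    nth_rw 2 [← cfc_id' ℝ K hK0.isSelfAdjoint]
    rw [← cfc_mul φ (fun t : ℝ => t) K hφc.continuousOn continuousOn_id,
      ← cfc_mul (fun t => φ t * t) φ K (hφc.mul continuous_id).continuousOn hφc.continuousOn]
  have hφ0 : ∀ t, 0 ≤ φ t := fun t =>
    le_min zero_le_one (mul_nonneg (le_max_right _ _) (by norm_num))
  have hcutK : cut (1 / 500) K ≤ q * K * q := by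
    rw [hqKq, cut]
    refine cfc_mono (fun t ht => ?_) (by fun_prop) (by fun_prop)
    have ht0 := spectrum_nonneg_of_nonneg hK0 ht
    rcases le_total t (1 / 500) with h' | h'
    · rw [max_eq_right (sub_nonpos.2 h')]
      exact mul_nonneg (mul_nonneg (hφ0 t) ht0) (hφ0 t)
    · have : φ t = 1 := by
        simp only [hφ]
        rw [max_eq_left (by linarith), min_eq_left (by linarith)]
      rw [this, max_eq_left (sub_nonneg.2 h')]
      linarith
  have hδq : (1 / 1000 : ℝ) • (q * q) ≤ q * K * q := by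
    rw [hqKq, hq, ← cfc_mul φ φ K hφc.continuousOn hφc.continuousOn,
      ← cfc_smul (1 / 1000 : ℝ) (fun t => φ t * φ t) K (hφc.mul hφc).continuousOn]
    refine cfc_mono (fun t _ => ?_) (by fun_prop) (by fun_prop)
    rw [smul_eq_mul]
    rcases le_total t (1 / 1000) with h' | h'
    · have : φ t = 0 := by
        simp only [hφ]
        rw [max_eq_right (sub_nonpos.2 h'), zero_mul, min_eq_right zero_le_one]
      simp [this]
    · nlinarith [mul_le_mul_of_nonneg_right h' (mul_nonneg (hφ0 t) (hφ0 t))]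
  set G₂ := q * (M * M) * q with hG₂
  have hG₂0 : 0 ≤ G₂ := hqs.conjugate_nonneg (hM0.isSelfAdjoint.mul_self_nonneg)
  have hG₂A : G₂ ∈ A₀ := hA₀.mul_right _ _ (hA₀.mul_left _ _ (hA₀.mul_left M M (hF.mem 1)))
  set L := genIdeal (cut (1 / 2000) G₂) with hLdef
  have hL : IsClosedIdeal L := isClosedIdeal_genIdeal _
  have hKL : Dom L (1 / 400) K := by
    refine ⟨_, mem_genIdeal_self _, cut_nonneg, ?_⟩
    calc K ≤ cut (1 / 500) K + sc (1 / 500) := le_cut_add hK0.isSelfAdjoint
      _ ≤ G₂ + sc (1 / 500) :=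
          add_le_add (hcutK.trans (hqs.conjugate_le_conjugate hKM)) le_rfl
      _ ≤ cut (1 / 2000) G₂ + sc (1 / 2000) + sc (1 / 500) :=
          add_le_add (le_cut_add hG₂0.isSelfAdjoint) le_rfl
      _ = cut (1 / 2000) G₂ + sc (1 / 400) := by
          rw [add_assoc, sc, sc, sc, ← map_add]; norm_num
  have hHL : H ⊆ L := genIdeal_subset hL
    (cut_mem_of_dom hL hh0 (by norm_num) (by norm_num) (hKL.mono hhK le_rfl))
  -- the test vector
  set c := s₁ * j * F 3 with hc
  have hMc : M * c = c := by rw [hc, ← mul_assoc, ← mul_assoc, hMs₁]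
  have hcn : ‖c‖ ≤ 1 := by
    refine (norm_mul_le _ _).trans (mul_le_one₀ ?_ (norm_nonneg _) hn3)
    exact (norm_mul_le _ _).trans (mul_le_one₀ hs₁n (norm_nonneg _) (qc_norm_le_one hj0 hj1))
  have hjs : star j = j := hj0.isSelfAdjoint.star_eq
  have hF34 : F 4 ∈ L := by
    set D := F 3 * F 2 * F 3 - F 3 * j * F 2 * j * F 3 with hD
    have hDd : Dom L (1 / 100) D := by
      have hD' : D = F 3 * F 2 * ((1 - j) * F 3) +
          star ((1 - j) * F 3) * (F 2 * j * F 3) := by
        rw [star_mul, star_sub, star_one, hjs, hF3, hD]; noncomm_ring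
      have hN : Near L (1 / 500) ((1 - j) * F 3) := by
        obtain ⟨Y, hY, hn⟩ := hNear
        exact ⟨Y, hHL hY, hn⟩
      have a1 := hN.mul_left hL (F 3 * F 2)
      have a2 := (Near.star hL hN).mul_right hL (F 2 * j * F 3)
      have a3 : Near L (1 / 250) D := by
        rw [hD']
        obtain ⟨Y, hY, hn⟩ := a1.add hL a2
        refine ⟨Y, hY, hn.trans ?_⟩
        have b1 : ‖F 3 * F 2‖ ≤ 1 := (norm_mul_le _ _).trans (mul_le_one₀ hn3 (norm_nonneg _) hn2)
        have b2 : ‖F 2 * j * F 3‖ ≤ 1 := (norm_mul_le _ _).trans (mul_le_one₀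
          ((norm_mul_le _ _).trans (mul_le_one₀ hn2 (norm_nonneg _) (qc_norm_le_one hj0 hj1)))
          (norm_nonneg _) hn3)
        nlinarith
      refine (a3.dom hL (η := 1 / 1000) (by norm_num) ?_).mono le_rfl (by norm_num)
      show star D = D
      rw [hD, star_sub]
      simp only [star_mul, hF2, hF3, hjs, mul_assoc]
    have hcc : F 3 * j * F 2 * j * F 3 ≤ star c * c + sc (1 / 1000) := by
      have j1 : F 2 ≤ star s₁ * s₁ + sc (1 / 1000) := by
        refine sub_le_iff_le_add'.1 (le_sc_of_norm_le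
          ((hF.nonneg 2).isSelfAdjoint.sub (IsSelfAdjoint.star_mul_self _)) ?_)
        rw [norm_sub_rev]; exact hs₁.trans (by norm_num)
      have j2 := star_left_conjugate_le_conjugate j1 (j * F 3)
      rw [mul_add, add_mul] at j2
      have j3 : star (j * F 3) * sc (1 / 1000) * (j * F 3) ≤ sc (1 / 1000) := by
        refine (conj_sc_le (by norm_num) _).trans (algebraMap_mono B ?_)
        have : ‖j * F 3‖ ≤ 1 :=
          (norm_mul_le _ _).trans (mul_le_one₀ (qc_norm_le_one hj0 hj1) (norm_nonneg _) hn3)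
        calc (1 / 1000 : ℝ) * ‖j * F 3‖ ^ 2 ≤ 1 / 1000 * 1 ^ 2 := by gcongr
          _ = 1 / 1000 := by norm_num
      refine le_trans (le_trans (le_of_eq ?_) j2) (add_le_add (le_of_eq ?_) j3)
      · simp only [star_mul, hjs, hF3, mul_assoc]
      · simp only [hc, star_mul, hjs, hF3, mul_assoc]
    have hKc : star c * c ≤ star c * K * c + (1 / 4 : ℝ) • (F 3 * F 3) := by
      have e1 : star c * c = star c * K * c + star (U * c) * (U * c) := by
        have hc' : star c * M = star c := by rw [← hMs, ← star_mul, hMc]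
        rw [hK, mul_sub, sub_mul, star_mul U c, ← mul_assoc (star c) M M, hc', hc']
        simp only [mul_assoc]
        abel
      rw [e1]
      refine add_le_add le_rfl ?_
      have e2 : U * c = star b * (x * j) * F 3 := by
        rw [hU, hV, hc, mul_assoc (star b), mul_assoc W M, ← hc, hMc, hc, hx]
        simp only [mul_assoc]
      rw [e2, star_mul _ (F 3), hF3, mul_assoc, ← mul_assoc (star _) _ (F 3), ← mul_assoc]
      refine ((hF.nonneg 3).isSelfAdjoint.conjugate_le_conjugate hbav).trans (le_of_eq ?_)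
      simp [sc, Algebra.algebraMap_eq_smul_one]
    have h33 : F 3 * F 2 * F 3 = F 3 * F 3 := by rw [hF.succ_mul 2]
    have hd : Dom L (1 / 20) ((3 / 4 : ℝ) • (F 3 * F 3)) := by
      have e1 : (3 / 4 : ℝ) • (F 3 * F 3) ≤ star c * K * c + sc (1 / 1000) + D := by
        have e2 : F 3 * F 3 ≤ star c * K * c + (1 / 4 : ℝ) • (F 3 * F 3) + sc (1 / 1000) + D := by
          calc F 3 * F 3 = F 3 * j * F 2 * j * F 3 + D := by rw [hD, h33]; abel
            _ ≤ _ := add_le_add (hcc.trans (add_le_add hKc le_rfl)) le_rfl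
        rw [show (3 / 4 : ℝ) = 1 - 1 / 4 by norm_num, sub_smul, one_smul, sub_le_iff_le_add]
        exact e2.trans (le_of_eq (by abel))
      have hdc : Dom L (1 / 400) (star c * K * c) := by
        refine (hKL.conj hL (by norm_num) c).mono le_rfl ?_
        calc (1 / 400 : ℝ) * ‖c‖ ^ 2 ≤ 1 / 400 * 1 ^ 2 := by gcongr
          _ = 1 / 400 := by norm_num
      exact ((hdc.add hL (dom_of_le_sc hL le_rfl)).add hL hDd).mono e1 (by norm_num)
    have hd' : Dom L (1 / 5) (F 3 * F 3) := by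
      have := hd.smul hL (r := 4 / 3) (by norm_num)
      rw [smul_smul, show (4 / 3 : ℝ) * (3 / 4) = 1 by norm_num, one_smul] at this
      exact this.mono le_rfl (by norm_num)
    refine mem_of_dom_fix hL (by norm_num) hd' ?_
    rw [hF4, ← mul_assoc, hF.succ_mul 3, mul_assoc, hF.mul_succ 3]
  -- the twin
  obtain ⟨v, hvA, hv, -⟩ := hP.compare hA₀ le_rfl (hF.mem 4) (hF.nonneg 4) hG₂A hG₂0
    (show (0 : ℝ) < 1 / 2000 by norm_num) (ε := e / 8) (by positivity)
    ⟨F 4, hF34, hF.nonneg 4, le_add_of_nonneg_right (sc_nonneg (by positivity))⟩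
  rw [Fin.sum_univ_one] at hv
  set s₀ := M * (q * v 0) with hs₀
  have hss : star s₀ * s₀ = star (v 0) * G₂ * v 0 := by
    rw [hs₀, hG₂, star_mul, star_mul, hMs, hqs.star_eq]; simp only [mul_assoc]
  obtain ⟨a, ha0, -, ha1, ha2⟩ := exists_contract (qc_norm_le_one (hF.nonneg 4) (hF.le_one 4))
    (show 0 < 4 * (e / 8) by positivity) (by rw [hss]; exact hv)
  refine ⟨b, a • s₀, hbA, hA₀.real_smul_mem a (hA₀.mul_left _ _ (hA₀.mul_left q _ (hvA 0))),
    hpb, hbp, hbn, ha1, hbe, ?_, ha2.trans (by linarith), ?_⟩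
  · rw [mul_smul_comm, hs₀, ← mul_assoc, hM, hF.mul_succ 0]
  · have e1 : star (U * (q * v 0)) * (U * (q * v 0)) =
        star s₀ * s₀ - star (v 0) * (q * K * q) * v 0 := by
      rw [hss, hG₂, hK]
      simp only [star_mul, hqs.star_eq, mul_sub, sub_mul, mul_assoc]
      abel
    have e2 : (1 / 1000 : ℝ) • (star s₀ * s₀) ≤ star (v 0) * (q * K * q) * v 0 := by
      refine le_trans ?_ (star_left_conjugate_le_conjugate hδq (v 0))
      rw [mul_smul_comm, smul_mul_assoc, hss]
      refine smul_le_smul_of_nonneg_left (star_left_conjugate_le_conjugate ?_ _) (by norm_num)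
      rw [hG₂]
      simpa [hqs.star_eq] using conj_le_self_of_le_one (sa_mul_self_le_one hM0 hM1) q
    have e3 : star b * W * (a • s₀) = a • (U * (q * v 0)) := by
      rw [mul_smul_comm, hs₀, hU, hV]; simp only [mul_assoc]
    rw [e3]
    refine norm_le_one_of_star_mul_le (by norm_num) ?_
    have e4 : star (a • (U * (q * v 0))) * (a • (U * (q * v 0))) ≤
        (1 - 1 / 1000 : ℝ) • (star (a • s₀) * (a • s₀)) := by
      have sq : ∀ Z : B, star (a • Z) * (a • Z) = (a * a) • (star Z * Z) := fun Z => by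
        rw [star_smul, star_trivial, smul_mul_assoc, mul_smul_comm, smul_smul]
      rw [sq, sq, smul_comm (1 - 1 / 1000 : ℝ)]
      refine smul_le_smul_of_nonneg_left ?_ (mul_self_nonneg a)
      rw [e1, sub_smul, one_smul]
      exact sub_le_sub_left e2 _
    refine e4.trans ?_
    rw [sc, Algebra.algebraMap_eq_smul_one]
    exact smul_le_smul_of_nonneg_left (star_mul_self_le_one ha1) (by norm_num)

end

end Vale.Agent.P133.Diag
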